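import Mathlib
import Vale.Agent.P152.Bd3.B41
import Vale.Agent.P152.Bd3.B46

/-!
The height function of the self-dual Ashkin-Teller model in the full plane converges to the
Gaussian free field, for every point of the self-dual line.
-/

open Filter Topology MeasureTheory ProbabilityTheory Vale.Agent.P145.FP

/-- Let `(J, U)` be a point of the self-dual line `J > 0`, `U ≤ J`, `sinh 2J = e^{-2U}` and
`t = (1 + e^{4U})^{-1/2}`. There is an infinite-volume Gibbs measure `Q` of the height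
representation on pairs `(τ, τ†)` of spin configurations on the vertices and faces of `ℤ²`,
invariant under translations and under the flip of all `τ` and the flip of all `τ†`, such that the
height function exists a.s. and `H_δ` converges in law, as `δ → 0`, to `s` times the Gaussian
free field on the plane modulo constants with covariance `2π (-Δ)⁻¹`, where `s = 1 / (π √g)`,
`g = (8 / π) arcsin (√(1 + e^{4U}) / 2)`. For `U ≤ 0` all even spin products decorrelate
under `Q`. -/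
theorem Vale.Agent.Results.P145.FullPlaneGFFAll.result (J U : ℝ) (_hJ : 0 < J) (hUJ : U ≤ J)
    (hself : Real.sinh (2 * J) = Real.exp (-2 * U)) :
    ∃ Q : Measure Conf, ∃ _ : IsProbabilityMeasure Q,
      Gibbs (1 / √(1 + Real.exp (4 * U))) Q ∧
      (∀ a : ℤ × ℤ, Q.map (tr a) = Q) ∧ Q.map flipV = Q ∧ Q.map flipF = Q ∧
      (U ≤ 0 → ∀ X Y : Finset Site, Even X.card → Even Y.card → Tendsto (fun a : ℤ × ℤ =>
        ∫ σ, (∏ x ∈ X, sp (σ x)) * ∏ y ∈ Y, sp (tr a σ y) ∂Q) cofinite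
          (𝓝 ((∫ σ, ∏ x ∈ X, sp (σ x) ∂Q) * ∫ σ, ∏ y ∈ Y, sp (σ y) ∂Q))) ∧
      (∀ᵐ σ ∂Q, ∃ H, IsHeight σ H) ∧
      ∃ s : ℝ,
      s = 1 / (Real.pi * √(8 / Real.pi * Real.arcsin (√(1 + Real.exp (4 * U)) / 2))) ∧
      ∀ H : Conf → Site → ℝ, (∀ᵐ σ ∂Q, IsHeight σ (H σ) ∧ H σ (Sum.inl 0) = 0) →
      ∀ (m : ℕ) (φ : Fin m → ℝ × ℝ → ℝ), (∀ j, Test (φ j)) →
        (Matrix.of (fun i j => s ^ 2 * (2 * Real.pi * gffCov (φ i) (φ j)))).PosSemidef ∧
        TendstoInDistribution (fun (δ : ℝ) (σ : Conf) =>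
          (WithLp.toLp 2 (fun j => fld (H σ) δ (φ j)) : EuclideanSpace ℝ (Fin m))) (𝓝[>] 0)
          (id : EuclideanSpace ℝ (Fin m) → EuclideanSpace ℝ (Fin m)) (fun _ => Q)
          (multivariateGaussian 0
            (Matrix.of (fun i j => s ^ 2 * (2 * Real.pi * gffCov (φ i) (φ j))))) := by
  have h0 : 0 < Real.exp (4 * U) := Real.exp_pos _
  have h1 : 2 * Real.sin (Real.pi / 48) < √(1 + Real.exp (4 * U)) := by
    have h2 : Real.sin (Real.pi / 48) < Real.pi / 48 := Real.sin_lt (by positivity)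
    have h3 := Real.pi_lt_four
    have h4 : 1 < √(1 + Real.exp (4 * U)) := by
      rw [Real.lt_sqrt (by norm_num)]
      linarith
    linarith
  have h2 : √(1 + Real.exp (4 * U)) ≤ 2 := by
    rw [Real.sqrt_le_left (by norm_num)]
    linarith [exp_le_three hUJ hself]
  obtain ⟨Q, s, -, hv, ⟨a0, a1, a2, a3, a4, a6, a7⟩, a5⟩ := main_UV (exp_le_three hUJ hself)
    (q := True) (fun _ => Vale.Agent.P152.GFF.mainV_fin h1 h2)
  exact ⟨Q, a0, a1, a2, a3, a4, a5, a6, s, hv trivial, a7⟩
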