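import Vale.Agent.P145.Bdl.FC

/-!
The height function of the self-dual Ashkin-Teller model in bounded Jordan domains converges to
the Gaussian free field with zero boundary values, divided by `π √g`.
-/

open Vale.Agent.P145.JG

/-- Let `(J, U)` be a point of the self-dual line, `t = (1 + e^{4U})^{-1/2}` and
`g = (8 / π) arcsin (√(1 + e^{4U}) / 2)`. For every bounded Jordan domain `D` and all lattice
polygons of mesh tending to `0` approximating `D` the height function of the height representation
with parameter `t` in the polygons, tested against test functions on `D`, converges in law to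
`1 / (π √g)` times the Gaussian free field in `D` with zero boundary values and covariance
`2π (-Δ_D)⁻¹`. -/
theorem Vale.Agent.Results.P145.JordanGFF.result (J U : ℝ) (_hJ : 0 < J) (hUJ : U ≤ J)
    (hself : Real.sinh (2 * J) = Real.exp (-2 * U)) (D : Set (ℝ × ℝ)) (hD : JordanDomain D) :
    Conv (1 / √(1 + Real.exp (4 * U)))
      (1 / (Real.pi * √(8 / Real.pi * Real.arcsin (√(1 + Real.exp (4 * U)) / 2)))) D :=
  jordan_full hUJ hself D hD
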